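import Crest.Agent.X212.Hel40.Defs
import Crest.Agent.X212.Tw39.Tw
import Crest.Agent.X212.Orx52.Orb
import Crest.Agent.X212.Cut44.Slide

/-!
# X212/Bs44 (helper44): homogeneity of (non-oriented) surfaces and the band sum `BS`
-/

set_option autoImplicit false
set_option linter.unusedSectionVars false

open Set Filter Topology Function Complex
open scoped ContDiff Manifold Real
open Crest.Agent.X212.Hel40 Crest.Agent.X212.Cap52
open Crest.Agent.X212.Cyl58 (IsOE ld_comp ld_congr ld_id ld_of_comp contMDiffAt_of_comp)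
open Crest.Agent.X212.Sep15 (CM)
open Crest.Agent.X212.Prf6 (IC tr Near G oC wd_of_inj)

noncomputable section

namespace Crest.Agent.X212.Bs44

variable {R : CM 2} {A : ℂ → R}

/-- diffeomorphisms as permutations -/
def LD (k : Equiv.Perm R) : Prop := IsLocalDiffeomorph (𝓡 2) (𝓡 2) ∞ k

theorem LD.mul {k l : Equiv.Perm R} (h : LD k) (h' : LD l) : LD (k * l) :=
  fun x => ld_comp (f := l) (g := k) (h (l x)) (h' x)

theorem LD.inv {k : Equiv.Perm R} (h : LD k) : LD k⁻¹ := fun y => by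
  obtain ⟨x, rfl⟩ := k.surjective y
  exact ld_of_comp (h x) (ld_congr (ld_id x) (.of_forall fun z => by simp))

/-- small plane charts -/
theorem exists_plane (x : R) {W : Set R} (hW : W ∈ 𝓝 x) :
    ∃ D : ℂ → R, IsOE IC (𝓡 2) D ∧ D 0 = x ∧ range D ⊆ W := by
  obtain ⟨e, he, rfl⟩ : ∃ e : ℂ → R, IsLocalDiffeomorphAt IC (𝓡 2) ∞ e 0 ∧ e 0 = x := by
    have hx := mem_chart_source ℂ (Orx52.toCp x)
    refine ⟨Orx52.ofCp ∘ (chartAt ℂ (Orx52.toCp x)).symm ∘
      fun w => chartAt ℂ (Orx52.toCp x) (Orx52.toCp x) + 1 * w, ld_comp (Orx52.ld_ofCp _)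
      (ld_comp ?_ (Prf6.pm_affine one_ne_zero _ 0).1), by simp [hx]; rfl⟩
    simpa using Prf6.ld_chart_symm _ ((chartAt ℂ _).map_source hx)
  have hc := he.contMDiffAt.continuousAt
  obtain ⟨Φ, hx, hΦ⟩ := he
  obtain ⟨ρ, hρ, h⟩ := Metric.eventually_nhds_iff_ball.1
    ((hc.eventually_mem hW).and (Φ.open_source.mem_nhds hx))
  have hb : ∀ z : ℂ, 0 + ρ * Cut44.kap z ∈ Metric.ball (0 : ℂ) ρ := fun z => by
    simp only [zero_add, Metric.mem_ball, dist_zero_right, norm_mul, norm_real,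
      Real.norm_of_nonneg hρ.le]
    nlinarith [Cut44.norm_kap z]
  have h0 : (ρ : ℂ) ≠ 0 := ofReal_ne_zero.2 hρ.ne'
  refine ⟨e ∘ (fun w => 0 + ρ * w) ∘ Cut44.kap, ⟨fun z w k => ?_, fun z => ld_comp ⟨Φ, (h _ (hb z)).2, hΦ⟩
    (ld_comp (Prf6.pm_affine h0 0 _).1 (Cut44.pm_kap z).1)⟩, by simp [Cut44.kap_zero], ?_⟩
  · have k1 := (h _ (hb z)).2
    have k2 := (h _ (hb w)).2
    simp only [comp_apply, hΦ k1, hΦ k2] at k
    exact Cut44.kap_inj (mul_left_cancel₀ h0 (add_left_cancel (Φ.injOn k1 k2 k)))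
  · rintro _ ⟨z, rfl⟩
    exact (h _ (hb z)).1

theorem out_supp {h : ℂ → ℂ} {L : Set ℂ} (hL : ∀ z ∉ L, h z = z) (z : ℂ) (hz : A z ∉ A '' L) :
    A (h z) = A z := by rw [hL z fun k => hz ⟨z, k, rfl⟩]

/-- homogeneity -/
theorem hom {W : Set R} (hW : IsOpen W) (hc : IsPreconnected W) {x y : R} (hx : x ∈ W)
    (hy : y ∈ W) : ∃ k, LD k ∧ Near k Wᶜ ∧ k x = y := by
  have hl : Lev33.LCo W fun z => ∃ k, LD k ∧ Near k Wᶜ ∧ k x = z := by
    intro z hz
    obtain ⟨D, hD, rfl, hr⟩ := exists_plane z (hW.mem_nhds hz)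
    obtain ⟨κ, -, h2, -, h4, h5⟩ := Prf6.exists_tau one_pos
    have hc := ((isCompact_closedBall (0 : ℂ) (5 * 1)).image hD.continuous).isClosed
    refine nhdsWithin_le_nhds (mem_of_superset (hD.isOpenEmbedding.image_mem_nhds.2
      (Metric.closedBall_mem_nhds 0 one_pos)) ?_)
    rintro _ ⟨w, hw, rfl⟩
    have wd := wd_of_inj hD.inj (κ w)
    have fx : ∀ u ∉ D '' Metric.closedBall 0 (5 * 1), tr D (κ w) u = u :=
      fun u => wd.fix (out_supp (h5 w))
    have a : LD (tr D (κ w)) := fun u => by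
      by_cases hu : u ∈ range D
      · obtain ⟨v, rfl⟩ := hu
        exact ld_of_comp (hD.loc v) (ld_congr (ld_comp (hD.loc _) (h2 w v).1) (.of_forall wd.apply))
      · exact ld_congr (ld_id u) (eventually_of_mem (hc.isOpen_compl.mem_nhds
          fun k => hu (image_subset_range _ _ k)) fx)
    have b : Near (tr D (κ w)) Wᶜ := Prf6.near_of_closed hc
      (disjoint_compl_right_iff_subset.2 ((image_subset_range _ _).trans hr)) fx
    have c : tr D (κ w) (D 0) = D w := by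
      rw [wd.apply, h4 w 0 (by simpa using hw) (by simp), zero_add]
    exact propext ⟨fun ⟨φ, d, e, f⟩ => ⟨_, a.inv.mul d, b.inv.mul e, by simp [f, ← c]⟩,
      fun ⟨φ, d, e, f⟩ => ⟨_, a.mul d, b.mul e, by simp [f, c]⟩⟩
  rw [← hl.eq hc hx hy]
  exact ⟨1, fun u => ld_id u, Prf6.near_one _, rfl⟩

theorem ann (h : An' A) : Tw39.Ann (𝓡 2) A := ⟨h.1, h.2⟩

theorem im_eq (h : An' A) {z w : ℂ} (e : A z = A w) : z.im = w.im := by
  obtain ⟨n, rfl⟩ := (h.2 _ _).1 e
  simp

theorem mem_core (h : An' A) {z : ℂ} : A z ∈ core A ↔ z.im = 0 :=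
  ⟨fun ⟨_, e⟩ => by simpa using (im_eq h e).symm, Prf6.mem_core⟩

theorem del_apply (h : An' A) (ε : ℝ) (z : ℂ) :
    del A ε (A z) = Circle.exp (2 * π * stp ε z.im) := by
  have k : ∃ w, A w = A z := ⟨z, rfl⟩
  rw [del, dif_pos k, im_eq h k.choose_spec]

theorem del_out (ε : ℝ) {x : R} (hx : x ∉ range A) : del A ε x = 1 := dif_neg hx

theorem del_comp (h : An' A) {K : Equiv.Perm R} (h' : An' (K ∘ A)) (ε : ℝ) (x : R) :
    del (K ∘ A) ε x = del A ε (K⁻¹ x) := by
  by_cases hx : x ∈ range (K ∘ A)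
  · obtain ⟨z, rfl⟩ := hx
    rw [del_apply h', comp_apply, Equiv.Perm.inv_def, Equiv.symm_apply_apply, del_apply h]
  · rw [del_out ε hx, del_out ε fun ⟨z, e⟩ => hx ⟨z, by simp [e]⟩]

theorem tube (h : An' A) {U : Set R} (hU : U ∈ 𝓝ˢ (core A)) :
    ∃ δ > (0 : ℝ), ∀ z : ℂ, |z.im| < δ → A z ∈ U := by
  obtain ⟨O, hO, h1, h2⟩ := mem_nhdsSet_iff_exists.1 hU
  obtain ⟨δ, hδ, hs⟩ := (isCompact_Icc.image continuous_ofReal : IsCompact (ofReal '' Icc 0 1)
    ).exists_thickening_subset_open (hO.preimage h.1.contMDiff.continuous)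
    (by rintro _ ⟨x, -, rfl⟩; exact h1 ⟨x, rfl⟩)
  refine ⟨δ, hδ, fun z hz => h2 ?_⟩
  rw [← (ann h).per z (-⌊z.re⌋)]
  refine hs (Metric.mem_thickening_iff.2 ⟨_, ⟨Int.fract z.re, ⟨Int.fract_nonneg _,
    (Int.fract_lt_one _).le⟩, rfl⟩, ?_⟩)
  rw [dist_of_re_eq (by simp [Int.fract, sub_eq_add_neg])]
  simpa [Real.dist_eq] using hz

/-- periodic functions with jumps -/
theorem sm_jump (h : An' A) {F : ℂ → ℝ} (hF : ∀ z (n : ℤ), F (z + n) = F z) {a : ℝ}
    (h0 : ∀ z : ℂ, a ≤ |z.im| → F z = 0) {x : R} (hx : ∀ z, A z = x → ContDiffAt ℝ ∞ F z) :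
    ContMDiffAt (𝓡 2) 𝓘(ℝ, ℝ) ∞ (extend A F 0) x := by
  by_cases k : x ∈ Tw39.strip A a
  · obtain ⟨z, -, rfl⟩ := k
    exact contMDiffAt_of_comp (h.1 z) ((hx z rfl).contMDiffAt.congr_of_eventuallyEq
      (.of_forall ((ann h).ext_apply hF 0)))
  · exact contMDiffAt_const.congr_of_eventuallyEq (eventually_of_mem
      (((ann h).isCompact_strip a).isClosed.isOpen_compl.mem_nhds k)
      fun y hy => (ann h).ext_out hF h0 hy)

/-- the angle of the step -/
def st (r : ℝ) : ℝ := 2 * π * stp 1 r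

/-- the jump -/
def hv (r : ℝ) : ℝ := if 0 < r then 2 * π else 0

theorem st_cd : ContDiff ℝ ∞ st :=
  contDiff_const.mul (Real.smoothTransition.contDiff.comp (by fun_prop))

theorem st_zero {r : ℝ} (h : r ≤ -1) : st r = 0 := by
  rw [st, stp, Real.smoothTransition.zero_of_nonpos (by linarith), mul_zero]

theorem st_one {r : ℝ} (h : 1 ≤ r) : st r = 2 * π := by
  rw [st, stp, Real.smoothTransition.one_of_one_le (by linarith), mul_one]

theorem exp_hv (r : ℝ) : Circle.exp (hv r) = 1 := by unfold hv; split_ifs <;> simp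

theorem hv_cd {z : ℂ} (h : z.im ≠ 0) : ContDiffAt ℝ ∞ (fun w : ℂ => hv w.im) z := by
  rcases h.lt_or_gt with k | k
  · exact contDiffAt_const.congr_of_eventuallyEq ((continuous_im.continuousAt.eventually
      (gt_mem_nhds k)).mono fun w hw => if_neg hw.not_gt)
  · exact contDiffAt_const.congr_of_eventuallyEq ((continuous_im.continuousAt.eventually
      (lt_mem_nhds k)).mono fun w hw => if_pos hw)

theorem st_sq (r : ℝ) : st (Prf6.sq r) = st r := by
  rcases le_total r (-1) with k | k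
  · rw [st_zero k, st_zero ((Prf6.sq_mono.monotone k).trans_eq (Prf6.sq_id (by simp)))]
  rcases le_total 1 r with k' | k'
  · rw [st_one k', st_one ((Prf6.sq_id (by simp)).symm.trans_le (Prf6.sq_mono.monotone k'))]
  · rw [Prf6.sq_id (abs_le.2 ⟨k, k'⟩)]

/-- the parallel annulus -/
def par (A : ℂ → R) (z : ℂ) : R := A (z.re + (8 + Prf6.sq z.im : ℝ) * I)

theorem an_par (h : An' A) : An' (par A) := by
  refine ⟨fun z => ld_comp (f := fun w : ℂ => ((id w.re : ℝ) + (8 + Prf6.sq w.im : ℝ) * I : ℂ))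
    (h.1 _) (Prf6.pm_diag contDiff_id (contDiff_const.add Prf6.sq_cd)
      (by simpa using Prf6.sq_deriv _)).1, fun z w => (h.2 _ _).trans (exists_congr fun n => ?_)⟩
  simp [Complex.ext_iff, Prf6.sq_mono.injective.eq_iff]

theorem del_par (h : An' A) (z : ℂ) : del (par A) 1 (A z) = Circle.exp (st (z.im - 8)) := by
  by_cases k : A z ∈ range (par A)
  · obtain ⟨w, e⟩ := k
    have := im_eq h e
    rw [← e, del_apply (an_par h), ← this]
    simpa [st] using congrArg Circle.exp (st_sq w.im).symm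
  · rw [del_out 1 k]
    rcases le_total (z.im - 8) (-1) with j | j
    · simp [st_zero j]
    rcases le_total 1 (z.im - 8) with j' | j'
    · simp [st_one j']
    refine (k ⟨⟨z.re, z.im - 8⟩, congrArg A ?_⟩).elim
    simp [Prf6.sq_id (abs_le.2 ⟨j, j'⟩)]

/-- **BS** -/
theorem bs : BsStmt := by
  intro R V A C hA hC hV cV dAC dV hs
  have nA : ∀ x ∈ V, x ∉ core A := fun x hx k => disjoint_left.1 dV hx (Or.inl k)
  have nC : ∀ x ∈ V, x ∉ core C := fun x hx k => disjoint_left.1 dV hx (Or.inr k)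
  -- the polar chart of the positive side of `C`
  let E : ℂ → R := fun w => C (lg true w)
  have lp : ∀ w, (lg true w).im = ‖w‖ := fun w => by simpa [sg] using lg_im true w
  have Ep : ∀ z : ℂ, 0 < z.im → E (pe true z) = C z := fun z hz => by
    have hz' : 0 < sg true * z.im := by simpa [sg] using hz
    obtain ⟨n, hn⟩ := pe_inj hz' (lg_pos _ (pe_ne hz')) (pe_lg _ _).symm
    simp only [E, hn, (ann hC).per]
  have EV : ∀ w ≠ 0, E w ∈ V := fun w hw => (hs _ (lp w ▸ norm_pos_iff.2 hw)).2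
  have Ei : Injective E := fun v w e => by
    obtain ⟨n, hn⟩ := (hC.2 _ _).1 e
    rw [← pe_lg true w, hn, pe_per, pe_lg]
  have El : ∀ w ≠ 0, IsLocalDiffeomorphAt IC (𝓡 2) ∞ E w := fun w hw =>
    pe_lg true w ▸ ld_of_comp (pm_pe (lg_pos true hw)).1 (ld_congr (hC.1 _)
      ((continuous_im.continuousAt.eventually (lt_mem_nhds (lp w ▸ norm_pos_iff.2 hw))).mono Ep))
  have E0 : ∀ w, E w ∈ V → w ≠ 0 := by
    rintro _ k rfl
    exact nC _ k ((mem_core hC).2 (by simp [lp]))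
  obtain ⟨k, k1, k2, k3⟩ := hom hV cV (hs I (by simp)).1 (EV 1 one_ne_zero)
  have kV : ∀ x, k x ∈ V ↔ x ∈ V := Prf6.mem_iff_of_fix fun x hx => k2.fix hx
  have kV' : ∀ x, k⁻¹ x ∈ V ↔ x ∈ V := Prf6.mem_iff_of_fix fun x hx => k2.inv.fix hx
  obtain ⟨κ, -, t2, -, t4, t5⟩ := Prf6.exists_tau one_pos
  have κ1 : κ (-1) 1 = 0 := by simpa using t4 (-1) 1 (by simp) (by simp)
  have wd := wd_of_inj Ei (κ (-1))
  let K := tr E (κ (-1))
  have Ki : ∀ w, K⁻¹ (E w) = E ((κ (-1))⁻¹ w) := fun w => by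
    rw [Equiv.Perm.inv_eq_iff_eq, wd.apply]; simp
  have Kl : ∀ x ∈ V, x ≠ E 1 → K x ∈ V ∧ IsLocalDiffeomorphAt (𝓡 2) (𝓡 2) ∞ K x := fun x hx h1 => by
    by_cases hr : x ∈ range E
    · obtain ⟨w, rfl⟩ := hr
      have : κ (-1) w ≠ 0 := fun j => h1 (by rw [(κ (-1)).injective (j.trans κ1.symm)])
      exact ⟨wd.apply w ▸ EV _ this, ld_of_comp (El w (E0 w hx))
        (ld_congr (ld_comp (El _ this) (t2 _ w).1) (.of_forall wd.apply))⟩
    refine ⟨(wd.out hr).symm ▸ hx, ld_congr (ld_id x) ?_⟩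
    filter_upwards [(((ann hC).isCompact_strip 5).isClosed.isOpen_compl.union (hC.1.isOpenMap _
      (isOpen_lt continuous_im (continuous_const (y := 0))))).mem_nhds (show x ∈ _ by
        by_cases j : x ∈ range C
        · obtain ⟨z, rfl⟩ := j
          rcases lt_trichotomy z.im 0 with j | j | j
          · exact Or.inr ⟨z, j, rfl⟩
          · exact (nC _ hx ((mem_core hC).2 j)).elim
          · exact (hr ⟨_, Ep z j⟩).elim
        · exact Or.inl fun i => j (image_subset_range _ _ i))] with y hy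
    refine wd.fix (out_supp (t5 _)) ?_
    rintro ⟨w, hw, rfl⟩
    rcases hy with j | ⟨z, j, e⟩
    · exact j ((ann hC).mem_strip.2 (by simpa [lp] using hw))
    · exact not_le.2 (show z.im < 0 from j) (by rw [im_eq hC e, lp]; exact norm_nonneg w)
  have dV' : ∀ z, k (par A z) ∈ V ∧ k (par A z) ≠ E 1 := fun z => by
    have := abs_lt.1 (Prf6.abs_sq_lt z.im)
    refine ⟨(kV _).2 (hs _ (by simp; linarith)).1, fun e => ?_⟩
    have := im_eq hA (k.injective (e.trans k3.symm))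
    simp at this
    linarith
  have a1 : An' (k ∘ par A) := ⟨fun z => ld_comp (k1 _) ((an_par hA).1 z), fun z w =>
    k.injective.eq_iff.trans ((an_par hA).2 z w)⟩
  have a2 : An' (K ∘ k ∘ par A) := ⟨fun z => ld_comp (Kl _ (dV' z).1 (dV' z).2).2 (a1.1 z), fun z w =>
    K.injective.eq_iff.trans (a1.2 z w)⟩
  refine ⟨_, a2, by rintro _ ⟨z, rfl⟩; exact (Kl _ (dV' z).1 (dV' z).2).1, ?_⟩
  -- the functions
  let H : R → ℝ := extend A (fun z => st z.im - hv z.im) 0
  let F : R → ℝ := extend A (fun z => hv z.im - st (z.im - 8)) 0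
  have H1 : ∀ z, H (A z) = st z.im - hv z.im := (ann hA).ext_apply (by simp) 0
  have F1 : ∀ z, F (A z) = hv z.im - st (z.im - 8) := (ann hA).ext_apply (by simp) 0
  have F0 : ∀ z : ℂ, 9 ≤ |z.im| → hv z.im - st (z.im - 8) = 0 := fun z hz => by
    rcases le_abs'.1 hz with j | j
    · rw [hv, if_neg (by linarith), st_zero (by linarith), sub_zero]
    · rw [hv, if_pos (by linarith), st_one (by linarith), sub_self]
  have sim := Tw39.sm_im
  have sF : ∀ x ∉ core A, ContMDiffAt (𝓡 2) 𝓘(ℝ, ℝ) ∞ F x := fun x hx =>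
    sm_jump hA (by simp) F0 fun z e => (hv_cd fun j => hx (e ▸ (mem_core hA).2 j)).sub
      (st_cd.comp (sim.sub contDiff_const)).contDiffAt
  have eH : ∀ x, del A 1 x = Circle.exp (H x) := fun x => by
    by_cases j : x ∈ range A
    · obtain ⟨z, rfl⟩ := j
      rw [del_apply hA, H1, Circle.exp_sub, exp_hv, div_one, st]
    · simp [del_out 1 j, H, extend_apply' _ _ _ j]
  have eF : ∀ x, del (par A) 1 x = Circle.exp (-F x) := fun x => by
    by_cases j : x ∈ range A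
    · obtain ⟨z, rfl⟩ := j
      rw [del_par hA, F1, neg_sub, Circle.exp_sub, exp_hv, div_one]
    · simp [del_out 1 (A := par A) fun ⟨z, e⟩ => j ⟨_, e⟩, F, extend_apply' _ _ _ j]
  have s1 : ContMDiff (𝓡 2) 𝓘(ℝ, ℝ) ∞ fun x => F (k⁻¹ x) + H x := fun x => by
    by_cases j : x ∈ core A
    · obtain ⟨t, rfl⟩ := j
      refine ContMDiffAt.congr_of_eventuallyEq (f := fun x => F x + H x) (contMDiffAt_of_comp (hA.1 t)
        ?_) ((k2.inv.at fun i => nA _ i ⟨t, rfl⟩).mono fun y hy => by simp only [hy])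
      refine (((st_cd.comp sim).sub (st_cd.comp (sim.sub (contDiff_const (c := 8))))).contMDiff
        _).congr_of_eventuallyEq (.of_forall fun z => ?_)
      simp only [comp_apply, F1, H1]
      ring
    · refine ((sF _ fun i => j ?_).comp x (k1.inv x).contMDiffAt).add (sm_jump hA (by simp) (a := 1)
        (fun z hz => ?_) fun z e => (st_cd.comp sim).contDiffAt.sub
          (hv_cd fun i => j (e ▸ (mem_core hA).2 i)))
      · rwa [k2.inv.fix fun i' => nA _ ((kV' x).2 i') i] at i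
      · rcases le_abs'.1 hz with j | j
        · rw [hv, if_neg (by linarith), st_zero j, sub_zero]
        · rw [hv, if_pos (by linarith), st_one j, sub_self]
  let f : ℂ → ℝ := fun w => F (k⁻¹ (E w))
  have f0 : ∀ᶠ w in 𝓝 0, f w = 0 := by
    obtain ⟨δ, hδ, h⟩ := tube hC (inter_mem (k2.inv.mono fun x hx i => nC x i hx)
      (((ann hA).isCompact_strip 9).isClosed.isOpen_compl.mem_nhdsSet.2 fun x ⟨t, e⟩ i =>
        disjoint_left.1 dAC (image_subset_range _ _ i) ⟨_, e⟩))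
    filter_upwards [Metric.ball_mem_nhds 0 hδ] with w hw
    obtain ⟨j1, j2⟩ := h (lg true w) (by simpa [lp] using hw)
    simp only [f, E, show k⁻¹ (C (lg true w)) = _ from j1]
    exact (ann hA).ext_out (by simp) F0 j2
  have f1 : ∀ᶠ w in 𝓝 1, f w = 2 * π := by
    filter_upwards [((k1.inv _).contMDiffAt.comp 1 (El 1 one_ne_zero).contMDiffAt).continuousAt.eventually
      ((hA.1.isOpenMap _ (isOpen_Ioo.preimage continuous_im : IsOpen (im ⁻¹' Ioo 0 7))).mem_nhds
        ⟨I, by simp, by simp [← k3]⟩)] with w ⟨z, hz, e⟩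
    simp only [f, show k⁻¹ (E w) = A z from e.symm, F1]
    rw [hv, if_pos hz.1, st_zero (by linarith [hz.2]), sub_zero]
  have fs : ContDiff ℝ ∞ f := contDiff_iff_contDiffAt.2 fun w => by
    by_cases hw : w = 0
    · exact contDiffAt_const.congr_of_eventuallyEq (hw ▸ f0)
    · exact contMDiffAt_iff_contDiffAt.1 ((sF _ (nA _ ((kV' _).2 (EV w hw)))).comp w
        ((k1.inv _).contMDiffAt.comp w (El w hw).contMDiffAt))
  have κi : (κ (-1))⁻¹ 0 = 1 := by rw [Equiv.Perm.inv_eq_iff_eq, κ1]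
  let ψ : ℂ → ℝ := fun w => f ((κ (-1))⁻¹ w) - f w - 2 * π
  have ψs : ContDiff ℝ ∞ ψ := ((fs.comp (contMDiff_iff_contDiff.1 (Prf6.G_sm (inv_mem (t2 _))))).sub
    fs).sub contDiff_const
  obtain ⟨ρ, hρ, ψ0⟩ : ∃ ρ > 0, ∀ w : ℂ, ‖w‖ < ρ → ψ w = 0 := by
    obtain ⟨ρ, hρ, h⟩ := Metric.eventually_nhds_iff_ball.1 (f0.and
      ((Prf6.G_cont_inv (t2 (-1))).continuousAt.eventually (κi.symm ▸ f1)))
    exact ⟨ρ, hρ, fun w hw => by
      simp only [ψ, h w (mem_ball_zero_iff.2 hw), sub_zero, sub_self]⟩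
  let δ : ℂ → ℝ := fun z => (if 0 < z.im then ψ (pe true z) else 0) + st z.im
  have δp : ∀ z (n : ℤ), δ (z + n) = δ z := fun z n => by simp [δ, pe_per]
  have s2 : ContMDiff (𝓡 2) 𝓘(ℝ, ℝ) ∞ (extend C δ 0) := fun x => by
    refine sm_jump hC δp (a := 6) (fun z hz => ?_) fun z _ => ContDiffAt.add ?_
      (st_cd.comp sim).contDiffAt
    · rcases le_abs'.1 hz with j | j
      · simp only [δ]
        rw [if_neg (by linarith), st_zero (by linarith), add_zero]
      · have : (κ (-1))⁻¹ (pe true z) = pe true z := by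
          rw [Equiv.Perm.inv_eq_iff_eq, t5 _ _ (by rw [mem_closedBall_zero_iff, norm_pe]; linarith)]
        simp only [δ, ψ, this]
        rw [if_pos (by linarith), st_one (by linarith)]
        ring
    · by_cases j : 0 < z.im
      · exact (ψs.contDiffAt.comp z (pm_pe (by simpa [sg] using j)).contDiffAt).congr_of_eventuallyEq
          ((continuous_im.continuousAt.eventually (lt_mem_nhds j)).mono fun w hw => if_pos hw)
      · refine (contDiffAt_const (c := 0)).congr_of_eventuallyEq ((continuous_im.continuousAt.eventually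
          (gt_mem_nhds ((not_lt.1 j).trans_lt hρ))).mono fun w hw => ?_)
        beta_reduce
        split_ifs with i
        · exact ψ0 _ (by rwa [norm_pe, abs_of_pos i])
        · rfl
  refine ⟨_, s1.add s2, fun x => ?_⟩
  rw [del_comp a1 a2, del_comp (an_par hA) a1, eF, Pi.mul_apply, eH, ← Circle.exp_add]
  by_cases j : x ∈ range C
  swap
  · rw [del_out 1 j, Equiv.Perm.inv_eq_iff_eq.2 (wd.out fun ⟨w, e⟩ => j ⟨_, e⟩).symm]
    simp [extend_apply' _ _ _ j]
  obtain ⟨z, rfl⟩ := j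
  simp only [Pi.add_apply, (ann hC).ext_apply δp, del_apply hC, ← Circle.exp_add, δ]
  split_ifs with i
  · rw [← Ep z i, Ki, Circle.exp_eq_exp]
    exact ⟨1, by simp only [ψ, f, st]; push_cast; ring⟩
  · by_cases j : C z ∈ range E
    · obtain ⟨w, e⟩ := j
      obtain rfl : w = 0 := norm_le_zero_iff.1 (by rw [← lp, im_eq hC e]; exact not_lt.1 i)
      have j0 : F (k⁻¹ (E 0)) = 0 := f0.self_of_nhds
      have j1 : F (k⁻¹ (E 1)) = 2 * π := f1.self_of_nhds
      rw [← e, Ki, κi, j0, j1, Circle.exp_eq_exp]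
      exact ⟨1, by simp only [st]; push_cast; ring⟩
    · rw [Equiv.Perm.inv_eq_iff_eq.2 (wd.out j).symm]
      congr 1
      simp only [st]
      ring

end Crest.Agent.X212.Bs44
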